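import Mathlib.Analysis.InnerProductSpace.Projection.Minimal
import Mathlib.Analysis.InnerProductSpace.PiL2
import Mathlib.LinearAlgebra.Matrix.PosDef
import Mathlib.Topology.Instances.Matrix
import Vale.Agent.P330.Brouwer

/-!
P254, (SP_0) line, row SP-POS, part (P1) (helper302): a continuous field `F` of symmetric matrices on
`al0 ≤ A ≤ al1` which points outwards on the `al1`-eigenvectors and inwards on the `al0`-eigenvectors
has a zero.  Brouwer + Hilbert projection.
-/

open Set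

namespace Vale.Agent.P254.SP302

/-- the nearest point map of a nonempty complete convex set is continuous -/
theorem exists_proj {H : Type*} [NormedAddCommGroup H] [InnerProductSpace ℝ H] {K : Set H}
    (ne : K.Nonempty) (hc : IsComplete K) (hconv : Convex ℝ K) :
    ∃ P : H → H, Continuous P ∧ (∀ x, P x ∈ K) ∧
      (∀ x, ∀ w ∈ K, inner ℝ (x - P x) (w - P x) ≤ 0) := by
  choose P hPK hP using exists_norm_eq_iInf_of_complete_convex ne hc hconv
  have hin : ∀ x, ∀ w ∈ K, inner ℝ (x - P x) (w - P x) ≤ 0 := fun x =>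
    (norm_eq_iInf_iff_real_inner_le_zero hconv (hPK x)).1 (hP x)
  refine ⟨P, ?_, hPK, hin⟩
  have hlip : ∀ x y, ‖P x - P y‖ ≤ ‖x - y‖ := by
    intro x y
    have h1 := hin x (P y) (hPK y)
    have h2 := hin y (P x) (hPK x)
    have h3 : ‖P x - P y‖ ^ 2 ≤ inner ℝ (x - y) (P x - P y) := by
      rw [← real_inner_self_eq_norm_sq]
      simp only [inner_sub_left, inner_sub_right] at h1 h2 ⊢
      rw [real_inner_comm (P x) (P y)] at *
      linarith
    have h4 := real_inner_le_norm (x - y) (P x - P y)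
    by_contra hcon
    push Not at hcon
    have h5 : 0 < ‖P x - P y‖ := lt_of_le_of_lt (norm_nonneg _) hcon
    nlinarith
  have : LipschitzWith 1 P := LipschitzWith.of_dist_le_mul (by
    intro x y
    rw [dist_eq_norm, dist_eq_norm]
    simpa using hlip x y)
  exact this.continuous

/-- Hartman-Stampacchia: variational inequalities on compact convex sets -/
theorem exists_vi {ι : Type*} [Fintype ι] {K : Set (EuclideanSpace ℝ ι)}
    (ne : K.Nonempty) (hK : IsCompact K) (hconv : Convex ℝ K)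
    (f : EuclideanSpace ℝ ι → EuclideanSpace ℝ ι) (hf : ContinuousOn f K) :
    ∃ x ∈ K, ∀ w ∈ K, 0 ≤ inner ℝ (f x) (w - x) := by
  classical
  obtain ⟨P, hPc, hPK, hP⟩ := exists_proj ne hK.isComplete hconv
  obtain ⟨ρ0, hρ0⟩ := hK.isBounded.exists_norm_le
  set ρ : ℝ := max ρ0 1 with hρ
  have hρpos : 0 < ρ := lt_of_lt_of_le one_pos (le_max_right _ _)
  have hρK : ∀ x ∈ K, ‖x‖ ≤ ρ := fun x hx => (hρ0 x hx).trans (le_max_left _ _)
  set e := Fintype.equivFin ι with he
  -- the map in coordinates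
  set up : (Fin (Fintype.card ι) → ℝ) → EuclideanSpace ℝ ι :=
    fun y => WithLp.toLp 2 (fun i => ρ * y (e i)) with hup
  set dn : EuclideanSpace ℝ ι → (Fin (Fintype.card ι) → ℝ) :=
    fun x => fun j => ρ⁻¹ * x (e.symm j) with hdn
  have hupc : Continuous up := by
    apply (PiLp.continuous_toLp 2 _).comp
    fun_prop
  have hdnc : Continuous dn := by
    refine continuous_pi fun j => ?_
    exact continuous_const.mul (EuclideanSpace.proj (𝕜 := ℝ) (e.symm j)).continuous
  have hupdn : ∀ x, up (dn x) = x := by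
    intro x
    ext i
    simp only [hup, hdn, Equiv.symm_apply_apply]
    field_simp
  set g : EuclideanSpace ℝ ι → EuclideanSpace ℝ ι := fun x => P (P x - f (P x)) with hg
  have hgc : Continuous g := by
    have h1 : Continuous fun x => f (P x) := hf.comp_continuous hPc hPK
    exact hPc.comp (hPc.sub h1)
  obtain ⟨y, hy1, hy2⟩ := Vale.Agent.P330.brouwer_cube (fun y => dn (g (up y)))
    (hdnc.comp (hgc.comp hupc)) (by
      intro y _
      rw [pi_norm_le_iff_of_nonneg zero_le_one]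
      intro j
      have h1 : ‖(g (up y)) (e.symm j)‖ ≤ ρ :=
        (PiLp.norm_apply_le (g (up y)) (e.symm j)).trans (hρK _ (hPK _))
      simp only [hdn, norm_mul, norm_inv, Real.norm_eq_abs, abs_of_pos hρpos]
      rw [Real.norm_eq_abs] at h1
      rw [inv_mul_le_iff₀ hρpos, mul_one]
      exact h1)
  set z := up y with hz
  have hzg : g z = z := by
    have := congrArg up hy2
    rwa [hupdn] at this
  have hzK : z ∈ K := hzg ▸ hPK _
  have hPz : P z = z := by
    have h1 := hP z z hzK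
    have h2 : ‖z - P z‖ ^ 2 ≤ 0 := by
      rw [← real_inner_self_eq_norm_sq]; exact h1
    have h3 : ‖z - P z‖ = 0 := by
      have := norm_nonneg (z - P z)
      nlinarith
    exact (sub_eq_zero.1 (norm_eq_zero.1 h3)).symm
  refine ⟨z, hzK, fun w hw => ?_⟩
  have h1 := hP (P z - f (P z)) w hw
  have h2 : P (P z - f (P z)) = z := hzg
  rw [h2, hPz] at h1
  have h3 : z - f z - z = - f z := by abel
  rw [h3, inner_neg_left] at h1
  linarith

variable {n : ℕ}

/-- the quadratic form of a matrix -/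
def q (A : Matrix (Fin n) (Fin n) ℝ) (v : Fin n → ℝ) : ℝ := ∑ i, ∑ j, v i * A i j * v j

/-- the order interval -/
def KK (n : ℕ) (al0 al1 : ℝ) : Set (Matrix (Fin n) (Fin n) ℝ) :=
  {A | (∀ i j, A i j = A j i) ∧ ∀ v, al0 * (∑ i, v i ^ 2) ≤ q A v ∧ q A v ≤ al1 * ∑ i, v i ^ 2}

theorem q_add (A B : Matrix (Fin n) (Fin n) ℝ) (v : Fin n → ℝ) : q (A + B) v = q A v + q B v := by
  simp only [q, Matrix.add_apply, ← Finset.sum_add_distrib]
  refine Finset.sum_congr rfl fun i _ => Finset.sum_congr rfl fun j _ => by ring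

theorem q_smul (c : ℝ) (A : Matrix (Fin n) (Fin n) ℝ) (v : Fin n → ℝ) : q (c • A) v = c * q A v := by
  simp only [q, Matrix.smul_apply, smul_eq_mul, Finset.mul_sum]
  refine Finset.sum_congr rfl fun i _ => Finset.sum_congr rfl fun j _ => by ring

theorem q_one (v : Fin n → ℝ) : q (1 : Matrix (Fin n) (Fin n) ℝ) v = ∑ i, v i ^ 2 := by
  simp only [q, Matrix.one_apply]
  refine Finset.sum_congr rfl fun i _ => ?_
  simp
  ring

theorem q_dot (A : Matrix (Fin n) (Fin n) ℝ) (v : Fin n → ℝ) :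
    q A v = ∑ i, v i * (A.mulVec v) i := by
  simp only [q, Matrix.mulVec, dotProduct, Finset.mul_sum]
  refine Finset.sum_congr rfl fun i _ => Finset.sum_congr rfl fun j _ => by ring

theorem q_homog (A : Matrix (Fin n) (Fin n) ℝ) (c : ℝ) (v : Fin n → ℝ) :
    q A (c • v) = c ^ 2 * q A v := by
  simp only [q, Pi.smul_apply, smul_eq_mul, Finset.mul_sum]
  refine Finset.sum_congr rfl fun i _ => Finset.sum_congr rfl fun j _ => by ring

/-- polarisation -/
theorem q_add_smul (A : Matrix (Fin n) (Fin n) ℝ) (hA : ∀ i j, A i j = A j i) (u v : Fin n → ℝ)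
    (s : ℝ) : q A (fun i => u i + s * v i) =
      q A u + 2 * s * (∑ i, u i * (A.mulVec v) i) + s ^ 2 * q A v := by
  have h1 : ∑ i, ∑ j, v i * A i j * u j = ∑ i, ∑ j, u i * A i j * v j := by
    rw [Finset.sum_comm]
    refine Finset.sum_congr rfl fun i _ => Finset.sum_congr rfl fun j _ => ?_
    rw [hA j i]; ring
  have h2 : ∑ i, u i * (A.mulVec v) i = ∑ i, ∑ j, u i * A i j * v j := by
    simp only [Matrix.mulVec, dotProduct, Finset.mul_sum]
    refine Finset.sum_congr rfl fun i _ => Finset.sum_congr rfl fun j _ => by ring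
  have h3 : q A (fun i => u i + s * v i) = q A u + s * (∑ i, ∑ j, u i * A i j * v j)
      + s * (∑ i, ∑ j, v i * A i j * u j) + s ^ 2 * q A v := by
    simp only [q, Finset.mul_sum, ← Finset.sum_add_distrib]
    refine Finset.sum_congr rfl fun i _ => Finset.sum_congr rfl fun j _ => by ring
  rw [h3, h1, h2]
  ring

/-- a positive semidefinite form vanishing at `v` has `v` in its kernel -/
theorem mulVec_eq_zero (A : Matrix (Fin n) (Fin n) ℝ) (hA : ∀ i j, A i j = A j i)
    (hp : ∀ v, 0 ≤ q A v) (v : Fin n → ℝ) (hv : q A v = 0) : A.mulVec v = 0 := by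
  set w := A.mulVec v with hw
  set b : ℝ := ∑ i, w i ^ 2 with hb
  have hb0 : 0 ≤ b := Finset.sum_nonneg fun i _ => sq_nonneg _
  by_contra hcon
  have hbpos : 0 < b := by
    rcases hb0.lt_or_eq with h | h
    · exact h
    · exfalso
      apply hcon
      funext i
      have := (Finset.sum_eq_zero_iff_of_nonneg (fun i _ => sq_nonneg (w i))).1 h.symm i
        (Finset.mem_univ i)
      simpa using this
  -- q A (w + s v) = q A w + 2 s b for every s
  have key : ∀ s : ℝ, 0 ≤ q A w + 2 * s * b := by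
    intro s
    have h1 := q_add_smul A hA w v s
    have h2 : ∑ i, w i * (A.mulVec v) i = b := by
      rw [hb]
      refine Finset.sum_congr rfl fun i _ => ?_
      rw [← hw]; ring
    rw [h2, hv] at h1
    have h3 := hp (fun i => w i + s * v i)
    rw [h1] at h3
    linarith
  have h1 := key (-(q A w + 1) / (2 * b))
  have h2 : 2 * (-(q A w + 1) / (2 * b)) * b = -(q A w + 1) := by
    field_simp
  rw [h2] at h1
  linarith

theorem q_abs_le (F : Matrix (Fin n) (Fin n) ℝ) (v : Fin n → ℝ) :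
    |q F v| ≤ (∑ i, ∑ j, |F i j|) * ∑ i, v i ^ 2 := by
  have h0 : ∀ i, v i ^ 2 ≤ ∑ i, v i ^ 2 := fun i =>
    Finset.single_le_sum (f := fun i => v i ^ 2) (fun i _ => sq_nonneg _) (Finset.mem_univ i)
  have h1 : ∀ i j, |v i * F i j * v j| ≤ |F i j| * ∑ i, v i ^ 2 := by
    intro i j
    rw [abs_mul, abs_mul]
    have h2 : |v i| * |v j| ≤ ∑ i, v i ^ 2 := by
      have h3 := h0 i
      have h4 := h0 j
      have h5 := sq_abs (v i)
      have h6 := sq_abs (v j)
      nlinarith [sq_nonneg (|v i| - |v j|)]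
    calc |v i| * |F i j| * |v j| = |F i j| * (|v i| * |v j|) := by ring
      _ ≤ |F i j| * ∑ i, v i ^ 2 := mul_le_mul_of_nonneg_left h2 (abs_nonneg _)
  unfold q
  calc |∑ i, ∑ j, v i * F i j * v j| ≤ ∑ i, |∑ j, v i * F i j * v j| :=
        Finset.abs_sum_le_sum_abs _ _
    _ ≤ ∑ i, ∑ j, |v i * F i j * v j| :=
        Finset.sum_le_sum fun i _ => Finset.abs_sum_le_sum_abs _ _
    _ ≤ ∑ i, ∑ j, |F i j| * ∑ i, v i ^ 2 :=
        Finset.sum_le_sum fun i _ => Finset.sum_le_sum fun j _ => h1 i j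
    _ = _ := by simp only [Finset.sum_mul]

theorem continuous_q (v : Fin n → ℝ) : Continuous fun A : Matrix (Fin n) (Fin n) ℝ => q A v := by
  unfold q
  refine continuous_finsetSum _ fun i _ => continuous_finsetSum _ fun j _ => ?_
  exact (continuous_const.mul (continuous_id.matrix_elem i j)).mul continuous_const

theorem continuous_q' (A : Matrix (Fin n) (Fin n) ℝ) : Continuous fun v => q A v := by
  unfold q
  fun_prop

/-- a positive definite form is bounded below -/
theorem exists_delta (A : Matrix (Fin n) (Fin n) ℝ) (hp : ∀ v, v ≠ 0 → 0 < q A v) :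
    ∃ δ > 0, ∀ v, δ * (∑ i, v i ^ 2) ≤ q A v := by
  set S : Set (Fin n → ℝ) := {v | ∑ i, v i ^ 2 = 1} with hS
  have hcl : IsClosed S := by
    apply isClosed_eq _ continuous_const
    fun_prop
  have hbd : Bornology.IsBounded S := by
    rw [isBounded_iff_forall_norm_le]
    refine ⟨1, fun v hv => ?_⟩
    rw [pi_norm_le_iff_of_nonneg zero_le_one]
    intro i
    have h1 : v i ^ 2 ≤ ∑ i, v i ^ 2 :=
      Finset.single_le_sum (f := fun i => v i ^ 2) (fun i _ => sq_nonneg _) (Finset.mem_univ i)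
    have h2 : ∑ i, v i ^ 2 = 1 := hv
    rw [h2] at h1
    rw [Real.norm_eq_abs]
    exact abs_le_one_iff_mul_self_le_one.2 (by nlinarith)
  have hcomp : IsCompact S := Metric.isCompact_of_isClosed_isBounded hcl hbd
  have hq0 : q A 0 = 0 := by simp [q]
  rcases S.eq_empty_or_nonempty with hE | hE
  · refine ⟨1, one_pos, fun v => ?_⟩
    have hv0 : v = 0 := by
      by_contra hv
      have hpos : 0 < ∑ i, v i ^ 2 := by
        obtain ⟨i, hi⟩ := Function.ne_iff.1 hv
        exact Finset.sum_pos' (fun i _ => sq_nonneg _) ⟨i, Finset.mem_univ i, by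
          have : v i ≠ 0 := hi
          positivity⟩
      have : (Real.sqrt (∑ i, v i ^ 2))⁻¹ • v ∈ S := by
        simp only [hS, Set.mem_ofPred_eq, Pi.smul_apply, smul_eq_mul, mul_pow]
        rw [← Finset.mul_sum, inv_pow, Real.sq_sqrt hpos.le, inv_mul_cancel₀ hpos.ne']
      rw [hE] at this
      exact this
    subst hv0
    simp [hq0]
  · obtain ⟨v0, hv0, hmin⟩ := hcomp.exists_isMinOn hE (continuous_q' A).continuousOn
    have hv0ne : v0 ≠ 0 := by
      rintro rfl
      have : ∑ i, (0 : Fin n → ℝ) i ^ 2 = 1 := hv0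
      simp at this
    refine ⟨q A v0, hp v0 hv0ne, fun v => ?_⟩
    by_cases hv : v = 0
    · subst hv; simp [hq0]
    have hpos : 0 < ∑ i, v i ^ 2 := by
      obtain ⟨i, hi⟩ := Function.ne_iff.1 hv
      exact Finset.sum_pos' (fun i _ => sq_nonneg _) ⟨i, Finset.mem_univ i, by
        have : v i ≠ 0 := hi
        positivity⟩
    have hmem : (Real.sqrt (∑ i, v i ^ 2))⁻¹ • v ∈ S := by
      simp only [hS, Set.mem_ofPred_eq, Pi.smul_apply, smul_eq_mul, mul_pow]
      rw [← Finset.mul_sum, inv_pow, Real.sq_sqrt hpos.le, inv_mul_cancel₀ hpos.ne']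
    have h1 : q A v0 ≤ q A ((Real.sqrt (∑ i, v i ^ 2))⁻¹ • v) := hmin hmem
    rw [q_homog, inv_pow, Real.sq_sqrt hpos.le] at h1
    rw [← div_eq_inv_mul, le_div_iff₀ hpos] at h1
    exact h1

theorem KK_convex (al0 al1 : ℝ) : Convex ℝ (KK n al0 al1) := by
  intro A hA B hB a b ha hb hab
  refine ⟨fun i j => ?_, fun v => ?_⟩
  · simp only [Matrix.add_apply, Matrix.smul_apply, smul_eq_mul, hA.1 i j, hB.1 i j]
  · rw [q_add, q_smul, q_smul]
    obtain ⟨h1, h2⟩ := hA.2 v
    obtain ⟨h3, h4⟩ := hB.2 v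
    have e1 : al0 * (∑ i, v i ^ 2) = a * (al0 * ∑ i, v i ^ 2) + b * (al0 * ∑ i, v i ^ 2) := by
      rw [← add_mul, hab, one_mul]
    have e2 : al1 * (∑ i, v i ^ 2) = a * (al1 * ∑ i, v i ^ 2) + b * (al1 * ∑ i, v i ^ 2) := by
      rw [← add_mul, hab, one_mul]
    rw [e1, e2]
    exact ⟨add_le_add (mul_le_mul_of_nonneg_left h1 ha) (mul_le_mul_of_nonneg_left h3 hb),
      add_le_add (mul_le_mul_of_nonneg_left h2 ha) (mul_le_mul_of_nonneg_left h4 hb)⟩

theorem KK_closed (al0 al1 : ℝ) : IsClosed (KK n al0 al1) := by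
  have h1 : KK n al0 al1 = (⋂ i, ⋂ j, {A | A i j = A j i}) ∩
      ⋂ v, ({A | al0 * (∑ i, v i ^ 2) ≤ q A v} ∩ {A | q A v ≤ al1 * ∑ i, v i ^ 2}) := by
    ext A
    simp only [KK, Set.mem_ofPred_eq, Set.mem_inter_iff, Set.mem_iInter]
  rw [h1]
  refine IsClosed.inter (isClosed_iInter fun i => isClosed_iInter fun j => ?_)
    (isClosed_iInter fun v => IsClosed.inter ?_ ?_)
  · exact isClosed_eq (continuous_id.matrix_elem i j) (continuous_id.matrix_elem j i)
  · exact isClosed_le continuous_const (continuous_q v)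
  · exact isClosed_le (continuous_q v) continuous_const

theorem q_single (A : Matrix (Fin n) (Fin n) ℝ) (i : Fin n) :
    q A (Pi.single i 1) = A i i := by
  simp only [q, Pi.single_apply]
  simp

theorem sq_single (i : Fin n) : ∑ k, (Pi.single i 1 : Fin n → ℝ) k ^ 2 = 1 := by
  simp only [Pi.single_apply]
  simp

theorem KK_entry (al0 al1 : ℝ) {A : Matrix (Fin n) (Fin n) ℝ} (hA : A ∈ KK n al0 al1)
    (i j : Fin n) : |A i j| ≤ 4 * (|al0| + |al1|) := by
  obtain ⟨hs, hb⟩ := hA
  have ha0 := neg_abs_le al0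
  have ha1 := le_abs_self al1
  have hn0 := abs_nonneg al0
  have hn1 := abs_nonneg al1
  have hd : ∀ i, |A i i| ≤ |al0| + |al1| := by
    intro i
    have h1 := hb (Pi.single i 1)
    rw [q_single, sq_single] at h1
    rw [abs_le]
    constructor <;> linarith [h1.1, h1.2]
  have h1 := q_add_smul A hs (Pi.single i 1) (Pi.single j 1) 1
  have h2 := hb (fun k => (Pi.single i 1 : Fin n → ℝ) k + 1 * (Pi.single j 1 : Fin n → ℝ) k)
  have h3 : ∑ k, (Pi.single i 1 : Fin n → ℝ) k * (A.mulVec (Pi.single j 1)) k = A i j := by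
    simp [Pi.single_apply]
  rw [h1, h3, q_single, q_single] at h2
  have h4 : 0 ≤ ∑ k, ((Pi.single i 1 : Fin n → ℝ) k + 1 * (Pi.single j 1 : Fin n → ℝ) k) ^ 2 :=
    Finset.sum_nonneg fun _ _ => sq_nonneg _
  have h5 : ∑ k, ((Pi.single i 1 : Fin n → ℝ) k + 1 * (Pi.single j 1 : Fin n → ℝ) k) ^ 2 ≤ 4 := by
    calc ∑ k, ((Pi.single i 1 : Fin n → ℝ) k + 1 * (Pi.single j 1 : Fin n → ℝ) k) ^ 2
        ≤ ∑ k, (2 * (Pi.single i 1 : Fin n → ℝ) k ^ 2 + 2 * (Pi.single j 1 : Fin n → ℝ) k ^ 2) := by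
          refine Finset.sum_le_sum fun k _ => ?_
          nlinarith [sq_nonneg ((Pi.single i 1 : Fin n → ℝ) k - (Pi.single j 1 : Fin n → ℝ) k)]
      _ = 4 := by
          rw [Finset.sum_add_distrib, ← Finset.mul_sum, ← Finset.mul_sum, sq_single, sq_single]
          norm_num
  obtain ⟨h6, h7⟩ := h2
  have h8 := abs_le.1 (hd i)
  have h9 := abs_le.1 (hd j)
  rw [abs_le]
  constructor <;> nlinarith

/-- matrices as Euclidean vectors -/
noncomputable def vec (A : Matrix (Fin n) (Fin n) ℝ) : EuclideanSpace ℝ (Fin n × Fin n) :=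
  WithLp.toLp 2 fun p => A p.1 p.2

/-- back -/
def unvec (x : EuclideanSpace ℝ (Fin n × Fin n)) : Matrix (Fin n) (Fin n) ℝ :=
  fun i j => x (i, j)

theorem unvec_vec (A : Matrix (Fin n) (Fin n) ℝ) : unvec (vec A) = A := rfl

theorem vec_unvec (x : EuclideanSpace ℝ (Fin n × Fin n)) : vec (unvec x) = x := by
  ext p; rfl

theorem continuous_vec : Continuous (vec (n := n)) := by
  apply (PiLp.continuous_toLp 2 _).comp
  refine continuous_pi fun p => ?_
  exact continuous_id.matrix_elem p.1 p.2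

theorem continuous_unvec : Continuous (unvec (n := n)) := by
  refine continuous_pi fun i => continuous_pi fun j => ?_
  exact (EuclideanSpace.proj (𝕜 := ℝ) (i, j)).continuous

theorem unvec_add (x y : EuclideanSpace ℝ (Fin n × Fin n)) :
    unvec (x + y) = unvec x + unvec y := rfl

theorem unvec_smul (c : ℝ) (x : EuclideanSpace ℝ (Fin n × Fin n)) :
    unvec (c • x) = c • unvec x := rfl

theorem inner_vec (A B : Matrix (Fin n) (Fin n) ℝ) :
    inner ℝ (vec A) (vec B) = ∑ i, ∑ j, A i j * B i j := by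
  rw [PiLp.inner_apply, Fintype.sum_prod_type]
  refine Finset.sum_congr rfl fun i _ => Finset.sum_congr rfl fun j _ => ?_
  simp [vec, mul_comm]

theorem KK_compact (al0 al1 : ℝ) : IsCompact (KK n al0 al1) := by
  have h1 : IsCompact (unvec ⁻¹' (KK n al0 al1)) := by
    apply Metric.isCompact_of_isClosed_isBounded ((KK_closed al0 al1).preimage continuous_unvec)
    rw [isBounded_iff_forall_norm_le]
    refine ⟨Real.sqrt (∑ p : Fin n × Fin n, (4 * (|al0| + |al1|)) ^ 2), fun x hx => ?_⟩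
    rw [EuclideanSpace.norm_eq]
    apply Real.sqrt_le_sqrt
    refine Finset.sum_le_sum fun p _ => ?_
    have h2 := KK_entry al0 al1 hx p.1 p.2
    exact pow_le_pow_left₀ (norm_nonneg _) h2 2
  have h2 : KK n al0 al1 = unvec '' (unvec ⁻¹' (KK n al0 al1)) := by
    rw [Set.image_preimage_eq]
    exact fun A => ⟨vec A, rfl⟩
  rw [h2]
  exact h1.image continuous_unvec

/-- `A - s vvᵀ` stays in the order interval if `v` is an `al1`-eigenvector -/
theorem sub_mem (al0 al1 : ℝ) (h01 : al0 < al1) {A : Matrix (Fin n) (Fin n) ℝ}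
    (hA : A ∈ KK n al0 al1) (v : Fin n → ℝ) (hv : v ≠ 0) (he : A.mulVec v = al1 • v) :
    ∃ s : ℝ, 0 < s ∧ A + (-s) • Matrix.vecMulVec v v ∈ KK n al0 al1 := by
  obtain ⟨hs, hb⟩ := hA
  set N : ℝ := ∑ i, v i ^ 2 with hN
  have hNpos : 0 < N := by
    obtain ⟨i, hi⟩ := Function.ne_iff.1 hv
    exact Finset.sum_pos' (fun i _ => sq_nonneg _) ⟨i, Finset.mem_univ i, by
      have : v i ≠ 0 := hi
      positivity⟩
  refine ⟨(al1 - al0) / N, div_pos (by linarith) hNpos, fun i j => ?_, fun w => ?_⟩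
  · simp only [Matrix.add_apply, Matrix.smul_apply, Matrix.vecMulVec_apply, smul_eq_mul, hs i j]
    ring
  have hq1 : q (Matrix.vecMulVec v v) w = (∑ i, v i * w i) ^ 2 := by
    simp only [q, Matrix.vecMulVec_apply, sq, Finset.sum_mul_sum]
    refine Finset.sum_congr rfl fun i _ => Finset.sum_congr rfl fun j _ => by ring
  rw [q_add, q_smul, hq1]
  set c : ℝ := (∑ i, v i * w i) / N with hc
  have hvw : ∑ i, v i * w i = c * N := by rw [hc]; field_simp
  rw [hvw]
  -- w = u + c v
  set u : Fin n → ℝ := fun i => w i - c * v i with hu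
  have hw : w = fun i => u i + c * v i := by funext i; simp [hu]
  have huv : ∑ i, u i * v i = 0 := by
    have : ∑ i, u i * v i = ∑ i, v i * w i - c * N := by
      rw [hN, Finset.mul_sum, ← Finset.sum_sub_distrib]
      refine Finset.sum_congr rfl fun i _ => by simp only [hu]; ring
    rw [this, hvw]; ring
  have hvv : q A v = al1 * N := by
    rw [q_dot, he, hN, Finset.mul_sum]
    refine Finset.sum_congr rfl fun i _ => by simp; ring
  have hqw : q A w = q A u + c ^ 2 * (al1 * N) := by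
    have h1 := q_add_smul A hs u v c
    rw [← hw] at h1
    rw [h1, hvv]
    have h2 : ∑ i, u i * (A.mulVec v) i = 0 := by
      rw [he]
      calc ∑ i, u i * (al1 • v) i = al1 * ∑ i, u i * v i := by
            rw [Finset.mul_sum]
            refine Finset.sum_congr rfl fun i _ => by simp; ring
        _ = 0 := by rw [huv, mul_zero]
    rw [h2]; ring
  have hww : ∑ i, w i ^ 2 = ∑ i, u i ^ 2 + c ^ 2 * N := by
    have h1 : ∑ i, w i ^ 2 = ∑ i, u i ^ 2 + 2 * c * (∑ i, u i * v i) + c ^ 2 * N := by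
      rw [hN, Finset.mul_sum, Finset.mul_sum, ← Finset.sum_add_distrib, ← Finset.sum_add_distrib]
      refine Finset.sum_congr rfl fun i _ => ?_
      have : w i = u i + c * v i := congrFun hw i
      rw [this]; ring
    rw [h1, huv]; ring
  have hcN : -((al1 - al0) / N) * (c * N) ^ 2 = -(al1 - al0) * (c ^ 2 * N) := by
    field_simp
  rw [hqw, hww, hcN]
  have h1 := hb u
  have h2 := hb w
  rw [hqw, hww] at h2
  have h3 : 0 ≤ c ^ 2 * N := by positivity
  have h4 : 0 ≤ (al1 - al0) * (c ^ 2 * N) := mul_nonneg (by linarith) h3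
  constructor
  · nlinarith [h1.1]
  · nlinarith [h2.2]

theorem neg_mem {al0 al1 : ℝ} {A : Matrix (Fin n) (Fin n) ℝ} (hA : A ∈ KK n al0 al1) :
    -A ∈ KK n (-al1) (-al0) := by
  obtain ⟨hs, hb⟩ := hA
  refine ⟨fun i j => by simp [hs i j], fun v => ?_⟩
  have h1 : q (-A) v = - q A v := by
    have := q_smul (-1) A v
    rw [neg_one_smul, neg_one_mul] at this
    exact this
  rw [h1]
  constructor <;> nlinarith [(hb v).1, (hb v).2]

/-- `A + s vvᵀ` stays in the order interval if `v` is an `al0`-eigenvector -/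
theorem add_mem (al0 al1 : ℝ) (h01 : al0 < al1) {A : Matrix (Fin n) (Fin n) ℝ}
    (hA : A ∈ KK n al0 al1) (v : Fin n → ℝ) (hv : v ≠ 0) (he : A.mulVec v = al0 • v) :
    ∃ s : ℝ, 0 < s ∧ A + s • Matrix.vecMulVec v v ∈ KK n al0 al1 := by
  obtain ⟨s, hs, hm⟩ := sub_mem (-al1) (-al0) (by linarith) (neg_mem hA) v hv (by
    rw [Matrix.neg_mulVec, he, neg_smul])
  refine ⟨s, hs, ?_⟩
  have h1 := neg_mem hm
  rw [neg_neg, neg_neg] at h1
  have h2 : -(-A + -s • Matrix.vecMulVec v v) = A + s • Matrix.vecMulVec v v := by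
    rw [neg_add, neg_neg, neg_smul, neg_neg]
  rwa [h2] at h1

/-- **(P1)** zeros of outward pointing fields on an order interval of symmetric matrices -/
theorem exists_zero (al0 al1 : ℝ) (h01 : al0 < al1)
    (F : Matrix (Fin n) (Fin n) ℝ → Matrix (Fin n) (Fin n) ℝ)
    (hF : ContinuousOn F (KK n al0 al1))
    (hsym : ∀ A ∈ KK n al0 al1, ∀ i j, F A i j = F A j i)
    (h0 : ∀ A ∈ KK n al0 al1, ∀ v, v ≠ 0 → A.mulVec v = al0 • v → q (F A) v < 0)
    (h1 : ∀ A ∈ KK n al0 al1, ∀ v, v ≠ 0 → A.mulVec v = al1 • v → 0 < q (F A) v) :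
    ∃ A ∈ KK n al0 al1, (∀ v, v ≠ 0 → al0 * (∑ i, v i ^ 2) < q A v) ∧
      (∀ v, v ≠ 0 → q A v < al1 * ∑ i, v i ^ 2) ∧ F A = 0 := by
  -- the variational inequality
  obtain ⟨x, hxK, hx⟩ := exists_vi (K := unvec ⁻¹' (KK n al0 al1))
    ⟨vec (al0 • (1 : Matrix (Fin n) (Fin n) ℝ)), by
      show unvec (vec (al0 • (1 : Matrix (Fin n) (Fin n) ℝ))) ∈ KK n al0 al1
      rw [unvec_vec]
      refine ⟨fun i j => ?_, fun v => ?_⟩
      · simp [Matrix.one_apply, eq_comm]
      · rw [q_smul, q_one]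
        exact ⟨le_refl _, mul_le_mul_of_nonneg_right h01.le
          (Finset.sum_nonneg fun _ _ => sq_nonneg _)⟩⟩
    (by
      have h2 : unvec ⁻¹' (KK n al0 al1) = vec '' (KK n al0 al1) := by
        ext y
        constructor
        · intro hy
          exact ⟨unvec y, hy, vec_unvec y⟩
        · rintro ⟨A, hA, rfl⟩
          exact hA
      rw [h2]
      exact (KK_compact al0 al1).image continuous_vec)
    (by
      intro x hx y hy a b ha hb hab
      exact KK_convex al0 al1 hx hy ha hb hab)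
    (fun x => vec (F (unvec x)))
    (continuous_vec.comp_continuousOn (hF.comp continuous_unvec.continuousOn fun x hx => hx))
  set A : Matrix (Fin n) (Fin n) ℝ := unvec x with hA
  have hAK : A ∈ KK n al0 al1 := hxK
  have hvi : ∀ B : Matrix (Fin n) (Fin n) ℝ, A + B ∈ KK n al0 al1 →
      0 ≤ ∑ i, ∑ j, F A i j * B i j := by
    intro B hB
    have h2 := hx (vec (A + B)) hB
    have h3 : vec (A + B) - x = vec B := by
      ext p
      simp [vec, hA, unvec]
    rw [h3, inner_vec] at h2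
    exact h2
  have hrank : ∀ (s : ℝ) (v : Fin n → ℝ),
      ∑ i, ∑ j, F A i j * (s • Matrix.vecMulVec v v) i j = s * q (F A) v := by
    intro s v
    simp only [q, Matrix.smul_apply, Matrix.vecMulVec_apply, smul_eq_mul, Finset.mul_sum]
    refine Finset.sum_congr rfl fun i _ => Finset.sum_congr rfl fun j _ => by ring
  have hn1 : ∀ v, v ≠ 0 → A.mulVec v ≠ al1 • v := by
    intro v hv he
    obtain ⟨s, hs, hm⟩ := sub_mem al0 al1 h01 hAK v hv he
    have h2 := hvi _ hm
    rw [hrank] at h2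
    nlinarith [h1 A hAK v hv he]
  have hn0 : ∀ v, v ≠ 0 → A.mulVec v ≠ al0 • v := by
    intro v hv he
    obtain ⟨s, hs, hm⟩ := add_mem al0 al1 h01 hAK v hv he
    have h2 := hvi _ hm
    rw [hrank] at h2
    nlinarith [h0 A hAK v hv he]
  have hs1 : ∀ v, v ≠ 0 → q A v < al1 * ∑ i, v i ^ 2 := by
    intro v hv
    rcases (hAK.2 v).2.lt_or_eq with h | h
    · exact h
    · exfalso
      apply hn1 v hv
      have h2 : ∀ w, 0 ≤ q (al1 • (1 : Matrix (Fin n) (Fin n) ℝ) + (-1 : ℝ) • A) w := by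
        intro w
        rw [q_add, q_smul, q_smul, q_one]
        linarith [(hAK.2 w).2]
      have h3 := mulVec_eq_zero _ (fun i j => by
        simp [hAK.1 i j, Matrix.one_apply, eq_comm]) h2 v (by
        rw [q_add, q_smul, q_smul, q_one]; linarith)
      rw [Matrix.add_mulVec, Matrix.smul_mulVec, Matrix.smul_mulVec, Matrix.one_mulVec,
        neg_one_smul] at h3
      exact (sub_eq_zero.1 (by rw [sub_eq_add_neg]; exact h3)).symm
  have hs0 : ∀ v, v ≠ 0 → al0 * (∑ i, v i ^ 2) < q A v := by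
    intro v hv
    rcases (hAK.2 v).1.lt_or_eq with h | h
    · exact h
    · exfalso
      apply hn0 v hv
      have h2 : ∀ w, 0 ≤ q (A + (-al0) • (1 : Matrix (Fin n) (Fin n) ℝ)) w := by
        intro w
        rw [q_add, q_smul, q_one]
        linarith [(hAK.2 w).1]
      have h3 := mulVec_eq_zero _ (fun i j => by
        simp [hAK.1 i j, Matrix.one_apply, eq_comm]) h2 v (by
        rw [q_add, q_smul, q_one]; linarith)
      rw [Matrix.add_mulVec, Matrix.smul_mulVec, Matrix.one_mulVec, neg_smul] at h3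
      exact sub_eq_zero.1 (by rw [sub_eq_add_neg]; exact h3)
  refine ⟨A, hAK, hs0, hs1, ?_⟩
  -- interior: move in the direction `-F A`
  obtain ⟨δ0, hδ0, hd0⟩ := exists_delta (A + (-al0) • (1 : Matrix (Fin n) (Fin n) ℝ)) (fun v hv => by
    rw [q_add, q_smul, q_one]; linarith [hs0 v hv])
  obtain ⟨δ1, hδ1, hd1⟩ := exists_delta (al1 • (1 : Matrix (Fin n) (Fin n) ℝ) + (-1 : ℝ) • A)
    (fun v hv => by
      rw [q_add, q_smul, q_smul, q_one]; linarith [hs1 v hv])
  set C : ℝ := ∑ i, ∑ j, |F A i j| with hC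
  have hC0 : 0 ≤ C := Finset.sum_nonneg fun _ _ => Finset.sum_nonneg fun _ _ => abs_nonneg _
  set ε : ℝ := min δ0 δ1 / (C + 1) with hε
  have hεpos : 0 < ε := div_pos (lt_min hδ0 hδ1) (by linarith)
  have hεC : ε * C ≤ min δ0 δ1 := by
    rw [hε, div_mul_eq_mul_div, div_le_iff₀ (by linarith)]
    have := lt_min hδ0 hδ1
    nlinarith
  have hB : A + (-ε) • F A ∈ KK n al0 al1 := by
    refine ⟨fun i j => ?_, fun v => ?_⟩
    · simp only [Matrix.add_apply, Matrix.smul_apply, smul_eq_mul, hAK.1 i j, hsym A hAK i j]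
    · rw [q_add, q_smul]
      have h2 := q_abs_le (F A) v
      rw [← hC] at h2
      have hN : 0 ≤ ∑ i, v i ^ 2 := Finset.sum_nonneg fun _ _ => sq_nonneg _
      have h3 : |ε * q (F A) v| ≤ min δ0 δ1 * ∑ i, v i ^ 2 := by
        rw [abs_mul, abs_of_pos hεpos]
        calc ε * |q (F A) v| ≤ ε * (C * ∑ i, v i ^ 2) := mul_le_mul_of_nonneg_left h2 hεpos.le
          _ = (ε * C) * ∑ i, v i ^ 2 := by ring
          _ ≤ min δ0 δ1 * ∑ i, v i ^ 2 := mul_le_mul_of_nonneg_right hεC hN
      have h4 := hd0 v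
      rw [q_add, q_smul, q_one] at h4
      have h5 := hd1 v
      rw [q_add, q_smul, q_smul, q_one] at h5
      have h6 : min δ0 δ1 * ∑ i, v i ^ 2 ≤ δ0 * ∑ i, v i ^ 2 :=
        mul_le_mul_of_nonneg_right (min_le_left _ _) hN
      have h7 : min δ0 δ1 * ∑ i, v i ^ 2 ≤ δ1 * ∑ i, v i ^ 2 :=
        mul_le_mul_of_nonneg_right (min_le_right _ _) hN
      have h8 := abs_le.1 h3
      constructor <;> linarith [h8.1, h8.2]
  have h2 := hvi _ hB
  have h3 : ∑ i, ∑ j, F A i j * (-ε • F A) i j = -ε * ∑ i, ∑ j, F A i j ^ 2 := by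
    simp only [Matrix.smul_apply, smul_eq_mul, Finset.mul_sum]
    refine Finset.sum_congr rfl fun i _ => Finset.sum_congr rfl fun j _ => by ring
  rw [h3] at h2
  have h4 : ∑ i, ∑ j, F A i j ^ 2 ≤ 0 := by nlinarith
  have h5 : 0 ≤ ∑ i, ∑ j, F A i j ^ 2 :=
    Finset.sum_nonneg fun _ _ => Finset.sum_nonneg fun _ _ => sq_nonneg _
  have h6 : ∑ i, ∑ j, F A i j ^ 2 = 0 := le_antisymm h4 h5
  ext i j
  have h7 := (Finset.sum_eq_zero_iff_of_nonneg (fun i _ =>
    Finset.sum_nonneg fun j _ => sq_nonneg (F A i j))).1 h6 i (Finset.mem_univ i)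
  have h8 := (Finset.sum_eq_zero_iff_of_nonneg (fun j _ => sq_nonneg (F A i j))).1 h7 j
    (Finset.mem_univ j)
  simpa using h8

end Vale.Agent.P254.SP302
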