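import Vale.Agent.P254.SP.POS.Iface
import Vale.Agent.P254.SP.H302.Zero

/-!
P254, row SP-POS, P1 (helper302): `StmtZero`.
-/

open MeasureTheory

namespace Vale.Agent.P254.SP302

open Vale.Agent.P227.M Vale.Agent.P254.S Vale.Agent.P254.SP.Pos

variable {n : ℕ}

theorem qf_eq_q (P : Matrix (Fin n) (Fin n) ℝ) (v : E n) : qf P v = q P v.ofLp := by
  simp only [qf, q]
  refine Finset.sum_congr rfl fun i _ => Finset.sum_congr rfl fun j _ => by ring

theorem norm_sq_eq (v : E n) : ‖v‖ ^ 2 = ∑ i, v.ofLp i ^ 2 := by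
  rw [EuclideanSpace.norm_sq_eq]
  refine Finset.sum_congr rfl fun i _ => by rw [Real.norm_eq_abs, sq_abs]

theorem box_eq (p q : ℝ) : Box n p q = KK n p q := by
  ext P
  constructor
  · rintro ⟨h1, h2, h3⟩
    refine ⟨fun i j => ?_, fun v => ?_⟩
    · have := congrFun (congrFun h1 j) i
      simpa [Matrix.transpose_apply] using this
    · have h4 := h2 (WithLp.toLp 2 v)
      have h5 := h3 (WithLp.toLp 2 v)
      rw [qf_eq_q, norm_sq_eq] at h4 h5
      exact ⟨h4, h5⟩
  · rintro ⟨h1, h2⟩
    refine ⟨?_, fun v => ?_, fun v => ?_⟩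
    · ext i j
      rw [Matrix.transpose_apply]
      exact h1 j i
    · rw [qf_eq_q, norm_sq_eq]; exact (h2 v.ofLp).1
    · rw [qf_eq_q, norm_sq_eq]; exact (h2 v.ofLp).2

/-- **P1** -/
theorem stmtZero : StmtZero := by
  intro n p q hp hpq F hF hsym h0 h1
  rw [box_eq] at hF hsym h0 h1 ⊢
  have hlin : ∀ (P : Matrix (Fin n) (Fin n) ℝ) (v : Fin n → ℝ) (t : ℝ),
      P.mulVec v = t • v → lin P (WithLp.toLp 2 v) = t • (WithLp.toLp 2 v : E n) := by
    intro P v t h
    unfold lin
    rw [← WithLp.toLp_smul]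
    exact congrArg _ h
  have hne : ∀ v : Fin n → ℝ, v ≠ 0 → (WithLp.toLp 2 v : E n) ≠ 0 := by
    intro v hv h
    apply hv
    have := congrArg WithLp.ofLp h
    simpa using this
  have hneg : ∀ (A : Matrix (Fin n) (Fin n) ℝ) (v : Fin n → ℝ),
      Vale.Agent.P254.SP302.q (-A) v = - Vale.Agent.P254.SP302.q A v := by
    intro A v
    have := q_smul (-1) A v
    rw [neg_one_smul, neg_one_mul] at this
    exact this
  obtain ⟨P, hP, -, -, hz⟩ := exists_zero p q hpq (fun P => - F P) hF.neg
    (by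
      intro P hP i j
      have := congrFun (congrFun (hsym P hP) j) i
      rw [Matrix.transpose_apply] at this
      simp only [Matrix.neg_apply, this])
    (by
      intro P hP v hv he
      have := h0 P hP (WithLp.toLp 2 v) (hne v hv) (hlin P v p he)
      rw [qf_eq_q] at this
      rw [hneg]
      exact neg_lt_zero.2 this)
    (by
      intro P hP v hv he
      have := h1 P hP (WithLp.toLp 2 v) (hne v hv) (hlin P v q he)
      rw [qf_eq_q] at this
      rw [hneg]
      exact neg_pos.2 this)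
  exact ⟨P, hP, neg_eq_zero.1 hz⟩

end Vale.Agent.P254.SP302
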